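import Vale.Agent.P366P.Lim

/-!
# P210L: the stability of the limit of graphs, with a variable lower bound
-/

open MeasureTheory Metric Filter Topology Set
open scoped ContDiff
open Vale.Agent.P366 hiding E
open Vale.Agent.P366.Stmt Vale.Agent.P366Z
open Vale.Agent.P366D hiding Null Par Per Lim
open Vale.Agent.P366P (Cy ds2 prd snc_ini ini_snc snc_last sm_ini Cv CvM CvT B0)
open Vale.Agent.P366M.Y.C
open Fin (last)

noncomputable section

namespace Vale.Agent.P366M.Gr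

section Gen

variable {n : ℕ} {M : Type} [Mf0 n M] {g : Fld n M} {φ u ζ χ v P : M → ℝ}

/-- the integrand of the second variation, for a variable lower bound -/
def svP (g : Fld n M) (φ ζ P : M → ℝ) (x : M) : ℝ :=
  Real.exp (φ x) * (2 * ip g ζ ζ x + (Rf g φ x - P x) * ζ x ^ 2)

/-- the stability inequality on the open set `O`, for a variable lower bound -/
def StbP (g : Fld n M) (f : M → ℝ) (O : Set M) (P : M → ℝ) : Prop :=
  ∀ ζ : M → ℝ, Smooth ζ → HasCompactSupport ζ → tsupport ζ ⊆ O → 0 ≤ ∫ x, svP g f ζ P x ∂vol g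

theorem svP_zero {x : M} (h : x ∉ tsupport ζ) (P : M → ℝ) : svP g φ ζ P x = 0 := by
  simp [svP, ip, pd_zero_of_notMem h, image_eq_zero_of_notMem_tsupport h]

theorem cont_svP (hg : Met g) (hφ : Smooth φ) (hζ : Smooth ζ) (hP : Continuous P) :
    Continuous (svP g φ ζ P) :=
  hφ.cont.rexp.mul (((hg.cont_ip hζ.one hζ.one).const_mul 2).add
    (((sm_Rf hg hφ).cont.sub hP).mul (hζ.cont.pow 2)))

theorem int_svP (hg : Met g) (hφ : Smooth φ) (hζ : Smooth ζ) (hc : HasCompactSupport ζ)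
    (hP : Continuous P) : Integrable (svP g φ ζ P) (vol g) :=
  hg.integrable_supp (cont_svP hg hφ hζ hP) (HasCompactSupport.intro hc fun _ q => svP_zero q P)

theorem StbP.mono {O O' : Set M} {P' : M → ℝ} (h : StbP g φ O P) (hg : Met g) (hφ : Smooth φ)
    (hP : Continuous P) (hP' : Continuous P') (hO : O' ⊆ O) (hPP : ∀ x ∈ O', P' x ≤ P x) :
    StbP g φ O' P' := fun ζ hζ hc hs => (h ζ hζ hc (hs.trans hO)).trans
  (integral_mono (int_svP hg hφ hζ hc hP) (int_svP hg hφ hζ hc hP') fun x => by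
    by_cases hx : x ∈ tsupport ζ
    · exact mul_le_mul_of_nonneg_left (by nlinarith [sq_nonneg (ζ x), hPP x (hs hx)])
        (Real.exp_pos _).le
    · rw [svP_zero hx, svP_zero hx])

theorem stab_gP (hg : Met g) (hφ : Smooth φ) (hu : Smooth u) (hζ : Smooth ζ)
    (hc : HasCompactSupport ζ) (hP : Continuous P) (h : ∀ x, ζ x ≠ 0 →
      P x ≤ Rf g φ x + hw g φ u x ^ 2 + 2 * dn g u (hw g φ u) x) :
    0 ≤ ∫ x, svP (gb g 1 u) φ ζ P x ∂vol (gb g 1 u) :=
  stab_of (met_g hg hu) hφ (CD.log (sm_w hg hu) fun x => (w_pos hg u x).ne')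
    ((sm_Rf (met_g hg hu) hφ).cont.sub hP) hζ hc fun x hx => by
      linarith [jac_sy hg hφ hu x, h x hx, a2_nonneg hg hu x]

theorem stab_locP (hg : Met g) (hφ : Smooth φ) (hζ : Smooth ζ) (hc : HasCompactSupport ζ)
    (hu : ∀ x ∈ tsupport ζ, ∀ᶠ z in 𝓝 x, CAt ∞ u z) (hP : Continuous P) (h : ∀ x, ζ x ≠ 0 →
      P x ≤ Rf g φ x + hw g φ u x ^ 2 + 2 * dn g u (hw g φ u) x) :
    (Continuous fun x => svP (gb g 1 u) φ ζ P x * ww g 1 u x) ∧
      0 ≤ ∫ x, svP (gb g 1 u) φ ζ P x * ww g 1 u x ∂vol g := by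
  obtain ⟨u', s1, s2⟩ := exists_smooth hc hu
  have e : (fun x => svP (gb g 1 u) φ ζ P x * ww g 1 u x) =
      fun x => svP (gb g 1 u') φ ζ P x * ww g 1 u' x := by
    funext x
    by_cases k : x ∈ tsupport ζ
    · have h1 := gb_congr (g := g) (s2 x k)
      rw [svP, svP, Rf, Rf, scal_of_ev h1, lap_of_ev h1, ip_of_eq h1.self_of_nhds,
        ip_of_eq h1.self_of_nhds, (ww_congr (s2 x k)).self_of_nhds]
    · rw [svP_zero k, svP_zero k, zero_mul, zero_mul]
  rw [e, ← integral_g hg s1]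
  refine ⟨(cont_svP (met_g hg s1) hφ hζ hP).mul (sm_w hg s1).cont,
    stab_gP hg hφ s1 hζ hc hP fun x hx => ?_⟩
  have h1 := s2 x (subset_tsupport _ hx)
  rw [dn_congr h1 (hw_congr h1), (hw_congr h1).self_of_nhds]
  exact h x hx

end Gen

variable {I : Type} {k : ℕ} {X : Type} [Mf0 (k + 1) X] {Z : Type} [Mf0 k Z] {e : Ch (k + 1) X}
  {π : E (k + 1) → E k} {x : E (k + 1)} {g : Fld (k + 1) X} {a f ψ P : X → ℝ} {l : Filter I}
  {u : I → X → ℝ} {S r : ℝ} {φ : E k → E (k + 1)} {y₀ : E k} {Ψ : I → E (k + 1) → E (k + 1)}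
  {V B : Set X} {ι : Z → X} {c : Ch k Z}

/-- the limit of the localised second variation -/
theorem Dt.limP (h : Dt l u S ι e φ π y₀ r Ψ V c) (hι : Sub ι B) (hg : Met g) (hf : Smooth f)
    (ha : Smooth a) (hψ : Smooth ψ) (h0 : ∀ x, ψ x ≠ 0 → x ∈ V) (hs : ∀ᶠ i in l, Slab (u i) S)
    {χ : ℝ → ℝ} (hχ : ContDiff ℝ ∞ χ) (h1 : ∀ s, χ s ≠ 0 → |s| ≤ S) (hP : Smooth P) :
    Tendsto (fun i => ∫ x, ψ x * (svP (gb g 1 (u i)) f (fun y => a y * χ (u i y)) P x *
      ww g 1 (u i) x) ∂vol g) l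
      (𝓝 ((∫ z, ψ (ι z) * svP (pull ι g) (fun z => f (ι z)) (fun z => a (ι z)) (fun z => P (ι z)) z
        ∂vol (pull ι g)) * (∫ s in Icc (-S) S, χ s ^ 2) +
        (∫ z, ψ (ι z) * (2 * Real.exp (f (ι z)) * a (ι z) ^ 2) ∂vol (pull ι g)) *
          ∫ s in Icc (-S) S, deriv χ s ^ 2)) := by
  have hK := P366P.cpt_Cy (isCompact_closedBall y₀ r) S
  have hγ := hι.met hg
  have γ0 := hγ.rep h.mem
  have hl : ContDiff ℝ ∞ fun y : E (k + 1) => χ (y (last k)) := hχ.comp (by fun_prop)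
  set Ξ : Option I → E (k + 1) → ℝ := fun i y => a (e.symm (fam Ψ φ i y)) * χ (y (last k)) with hΞ
  set G : Option I → Stmt.Field (k + 1) := fun i => gp (rep e g) (fam Ψ φ i) with hG
  have t1 := (P366P.tendsto_setIntegral (U := fun i y => ψ (e.symm (fam Ψ φ i y)) *
      (Real.exp (f (e.symm (fam Ψ φ i y))) * (2 * P366Z.ip (G i) (Ξ i) (Ξ i) y +
        (RfE (G i) (fun y => f (e.symm (fam Ψ φ i y))) y - P (e.symm (fam Ψ φ i y))) *
          Ξ i y ^ 2) * P366Z.dens (G i) y))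
      hK le_sup_right fun x hx => by
    have d0 := h.det_pos hι hx hg
    have g0 := h.cv_g hx hg
    have f0 := h.cv_f hx hf
    have x0 : Cv (fl l) none 3 Ξ x :=
      (h.cv_f hx ha).mul (P366P.cv_fix le_sup_right 3 (.of_forall fun _ => hl.contDiffAt))
    exact (((h.cv_f hx hψ).mono (Nat.zero_le _)).mul ((((f0.mono (Nat.zero_le _)).exp).mul
      (((g0.pred.pred.ip d0 x0.pred.pred x0.pred.pred).const_mul 2).add
        (((g0.RfE d0 f0.pred).sub ((h.cv_f hx hP).mono (Nat.zero_le _))).mul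
          ((x0.mono (Nat.zero_le _)).pow 2)))).mul (g0.pred.pred.dens d0))).b0).comp (tendsto_fl l)
  have c0 : ∀ {F : Z → ℝ}, Continuous F → ∀ {w : ℝ → ℝ}, Continuous w → IntegrableOn
      (fun x => P366Z.dens (rep c (pull ι g)) (ini x) * (ψ (ι (c.symm (ini x))) *
        F (c.symm (ini x))) * w (x (last k))) (Cy (closedBall y₀ r) S) := fun hF _ hw =>
    ContinuousOn.integrableOn_compact hK (((γ0.sm_dens.cont.mul
      (((smooth_comp hι.sm hψ).cont.mul hF).comp (cont_symm h.mem))).comp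
        sm_ini.continuous).mul (hw.comp (by fun_prop))).continuousOn
  rw [← h.int hγ _ h0, ← h.int hγ _ h0, ← P366P.integral_Cy, ← P366P.integral_Cy, ← integral_add
    (c0 (cont_svP hγ (smooth_comp hι.sm hf) (smooth_comp hι.sm ha) (smooth_comp hι.sm hP).cont)
      (hχ.continuous.fun_pow 2))
    (c0 (((smooth_comp hι.sm hf).cont.rexp.const_mul 2).fun_mul
      ((smooth_comp hι.sm ha).cont.fun_pow 2)) ((hχ.continuous_deriv (by simp)).fun_pow 2))]
  convert t1.congr' ?_ using 2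
  · refine setIntegral_congr_fun hK.measurableSet fun x hx => ?_
    have e1 := h.lim_g hι hx g
    have e2 : Ξ none =ᶠ[𝓝 x] fun y => loc c (fun z => a (ι z)) (ini y) * χ (y (last k)) :=
      (h.lim_f hx a).mono fun y q => by simp only [hΞ, q]
    have d1 := (smooth_comp hι.sm ha).diff (c.symm (ini x))
    have r1 : RfE (G none) (fun y => f (e.symm (fam Ψ φ none y))) x = _ :=
      (RfE_congr e1 (h.lim_f hx f)).trans ((P366P.RfE_prd γ0 _ x).trans
        (Rf_rep h.mem hγ ((smooth_comp hι.sm hf).c2 _)))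
    have r2 : P366Z.ip (G none) (Ξ none) (Ξ none) x = _ :=
      (P366Z.ip_of_eq e1.self_of_nhds _ _).trans ((P366Z.ip_congr e2 e2).trans
        (P366P.ip_prd_mul γ0 (d1.lc h.mem) (hχ.differentiable (by simp) _).hasDerivAt))
    have r3 : P366Z.dens (G none) x = _ :=
      (P366Z.dens_of_eq e1.self_of_nhds).trans (congrFun (P366P.dens_prd _) x)
    rw [ip_rep h.mem _ d1 d1] at r2
    simp only [r1, r2, r3, e2.self_of_nhds, (h.lim_f hx f).self_of_nhds,
      (h.lim_f hx ψ).self_of_nhds, (h.lim_f hx P).self_of_nhds, svP, loc]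
    ring
  · filter_upwards [h.rg.pt hs, h.rg.cov, hs] with i p q s
    obtain ⟨s1, s2⟩ := s.test hχ h1
    rw [← setIntegral_eq_integral_of_forall_compl_eq_zero
      (s := e.symm '' (Ψ i '' Cy (closedBall y₀ r) S)) fun x hx => ?_,
      integral_param hg h.rg.mem hK.measurableSet
        (fun x hx => (p x hx).sm.self_of_nhds.1.differentiableAt (by simp)) (inj_of_pt p)]
    · refine setIntegral_congr_fun hK.measurableSet fun x hx => ?_
      have e1 := (p x hx).ip g (a := fun y => a y * χ (u i y)) (A := Ξ (some i))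
        ((ha.diff _).mul (s1.diff _)) ((p x hx).sm.mono fun y w => by simp only [hΞ, fam, w.2])
      simp only [hG, fam, e1, (p x hx).Rf hg hf, (p x hx).dens hg, svP]
      simp only [hΞ, fam, (p x hx).sm.self_of_nhds.2]
      ring
    · by_cases w : ψ x = 0
      · rw [w, zero_mul]
      · rw [svP_zero fun w' => hx (q x (h0 x w) (s2 (tsupport_mul_subset_right w'))), zero_mul,
          mul_zero]

/-- **the limit is stable**, for a variable lower bound -/
theorem stlP : ∃ C : ℝ, ∀ (I : Type) (l : Filter I) [l.NeBot] (k : ℕ) (X : Type) [Mf0 (k + 1) X]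
    (Z : Type) [Mf0 k Z] (g : Fld (k + 1) X) (f P : X → ℝ) (ι : Z → X) (B : Set X) (U : Set Z)
    (u : I → X → ℝ) (S : ℝ), Met g → Smooth f → Smooth P → Sub ι B → 0 < S →
    (∀ᶠ i in l, Slab (u i) S) → (∀ z, Rg l u S ι z) →
    (∀ z ∈ U, ∃ O ∈ 𝓝 (ι z), ∀ᶠ i in l, ∀ x ∈ O, |u i x| ≤ S →
      P x ≤ Rf g f x + hw g f (u i) x ^ 2 + 2 * dn g (u i) (hw g f (u i)) x) →
    StbP (pull ι g) (fun z => f (ι z)) U fun z => P (ι z) - C / S ^ 2 := by
  obtain ⟨C, hC⟩ := exists_chi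
  refine ⟨C, fun I l _ k X _ Z _ g f P ι B U u S hg hf hP hι S0 hs hr hb ζ hζ hc hU => ?_⟩
  obtain ⟨χ, x1, x2, x3, x4⟩ := hC S S0
  have hb' : ∀ z, ∃ O ∈ 𝓝 (ι z), z ∈ U → ∀ᶠ i in l, ∀ x ∈ O, |u i x| ≤ S →
      P x ≤ Rf g f x + hw g f (u i) x ^ 2 + 2 * dn g (u i) (hw g f (u i)) x := fun z => by
    by_cases q : z ∈ U
    · obtain ⟨O, a, b⟩ := hb z q
      exact ⟨O, a, fun _ => b⟩
    · exact ⟨univ, univ_mem, fun w => absurd w q⟩
  choose O hO hb using hb'
  choose e φ π y₀ r Ψ V c h hV hVO _ using fun z => (hr z).dt hι (hO z)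
  have hγ := hι.met hg
  have ci : Continuous ι := hι.emb.continuous
  obtain ⟨t₀, σ, w, w1, w0, w4⟩ := pou_sub (hc.isCompact.image ci)
    (fun z => interior (V z) ∩ {_x | z ∈ U}) (by
    rintro _ ⟨z, q, rfl⟩
    exact ⟨z, inter_mem (interior_mem_nhds.2 (hV z)) (univ_mem' fun _ => hU q)⟩)
  classical
  set t := t₀.filter fun p => σ p ∈ U with ht
  have w2 : ∀ p ∈ t, HasCompactSupport (w p) ∧ tsupport (w p) ⊆ interior (V (σ p)) := fun p hp =>
    ⟨(w0 p (Finset.mem_filter.1 hp).1).1, (w0 p (Finset.mem_filter.1 hp).1).2.trans inter_subset_left⟩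
  have w3 : ∀ x ∈ ι '' tsupport ζ, ∑ p ∈ t, w p x = 1 := fun x hx => by
    rw [← w4 x hx]
    exact Finset.sum_filter_of_ne fun p hp q => ((w0 p hp).2 (subset_tsupport _ q)).2
  have P1 := (smooth_comp hι.sm hP).cont
  set a : X → ℝ := fun x => ∑ p ∈ t, w p x * loc (c (σ p)) ζ (π (σ p) (e (σ p) x)) with ha
  have a1 : Smooth a := CD.sum fun p hp => smooth_mul_of (w1 p) fun x hx =>
    (hζ _ (h _).mem).contDiffAt.compM ((h _).rg.smπ.contDiffAt.compM
      (cAt_mx (mx_of_At (h _).rg.mem) ((h _).src (interior_subset ((w2 p hp).2 hx)))))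
  have a2 : ∀ z, a (ι z) = ζ z := fun z => by
    have h1 : a (ι z) = (∑ p ∈ t, w p (ι z)) * ζ z := by
      rw [Finset.sum_mul]
      refine Finset.sum_congr rfl fun p hp => ?_
      by_cases q : w p (ι z) = 0
      · rw [q, zero_mul, zero_mul]
      · obtain ⟨y, hy, rfl⟩ := (h _).pre z (interior_subset ((w2 p hp).2 (subset_tsupport _ q)))
        rw [((h _).eq y hy).self_of_nhds, right_inv (h _).rg.mem, (h _).rg.inv, loc]
    by_cases q : z ∈ tsupport ζ
    · rw [h1, w3 _ ⟨z, q, rfl⟩, one_mul]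
    · rw [h1, image_eq_zero_of_notMem_tsupport q, mul_zero]
  have hK : IsCompact (⋃ p ∈ t, tsupport (w p)) := t.isCompact_biUnion fun p hp => (w2 p hp).1
  have a3 : tsupport a ⊆ ⋃ p ∈ t, tsupport (w p) := closure_minimal (fun x hx => by
    obtain ⟨p, hp, q⟩ := Finset.exists_ne_zero_of_sum_ne_zero hx
    exact mem_biUnion hp (subset_tsupport _ (left_ne_zero_of_mul q))) hK.isClosed
  have a4 : HasCompactSupport a := hK.of_isClosed_subset (isClosed_tsupport _) a3
  obtain ⟨t', σ', ψ, p1, p2, p3⟩ := pou_sub (hK.union (hc.isCompact.image ci))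
    (fun z => interior (V z)) (by
      rintro x (hx | ⟨z, -, rfl⟩)
      · obtain ⟨p, hp, q⟩ := mem_iUnion₂.1 hx
        exact ⟨σ p, isOpen_interior.mem_nhds ((w2 p hp).2 q)⟩
      · exact ⟨z, interior_mem_nhds.2 (hV z)⟩)
  have t1 := tendsto_finsetSum t' fun p hp => (h (σ' p)).limP hι hg hf a1 (p1 p)
    (fun x hx => interior_subset ((p2 p hp).2 (subset_tsupport _ hx))) hs x1 x2 hP
  have f1 := smooth_comp hι.sm hf
  have s0 : ∀ {F : Z → ℝ}, Continuous F → (∀ z ∉ tsupport ζ, F z = 0) →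
      ∑ p ∈ t', ∫ z, ψ p (ι z) * F z ∂vol (pull ι g) = ∫ z, F z ∂vol (pull ι g) :=
    fun {F} hF h0 => by
      rw [← integral_finsetSum _ fun p _ => hγ.integrable_supp ((smooth_comp hι.sm (p1 p)).cont.fun_mul hF)
        (supp_mul_left (HasCompactSupport.intro hc h0))]
      refine integral_congr_ae (.of_forall fun z => ?_)
      by_cases q : z ∈ tsupport ζ
      · simp only [← Finset.sum_mul, p3 _ (.inr ⟨z, q, rfl⟩), one_mul]
      · simp [h0 z q]
  have z0 : ∀ z ∉ tsupport ζ, 2 * Real.exp (f (ι z)) * ζ z ^ 2 = 0 := fun z q => by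
    simp [image_eq_zero_of_notMem_tsupport q]
  have c2 : Continuous fun z => 2 * Real.exp (f (ι z)) * ζ z ^ 2 :=
    (f1.cont.rexp.const_mul 2).fun_mul (hζ.cont.fun_pow 2)
  simp only [a2, Finset.sum_add_distrib, ← Finset.sum_mul] at t1
  rw [s0 (cont_svP hγ f1 hζ P1) fun z q => svP_zero q _, s0 c2 z0] at t1
  have t2 := ge_of_tendsto t1 (b := 0) (by
    filter_upwards [hs, (eventually_all_finset t).2 fun p hp => hb (σ p) (Finset.mem_filter.1 hp).2] with i q1 q2
    obtain ⟨s1, s2⟩ := q1.test x1 x2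
    obtain ⟨k1, k2⟩ := stab_locP (u := u i) hg hf (CD.mul a1 s1) (supp_mul_right a4)
      (fun x hx => q1.sm x (s2 (tsupport_mul_subset_right hx))) hP.cont fun x hx => by
        obtain ⟨p, hp, q⟩ := mem_iUnion₂.1 (a3 (subset_tsupport _ (left_ne_zero_of_mul hx)))
        exact q2 p hp x (hVO _ (interior_subset ((w2 p hp).2 q))) (x2 _ (right_ne_zero_of_mul hx))
    rw [← integral_finsetSum _ fun p hp => hg.integrable_supp ((p1 p).cont.fun_mul k1)
      (supp_mul_right (p2 p hp).1)]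
    refine k2.trans_eq (integral_congr_ae (.of_forall fun x => ?_))
    by_cases q : x ∈ tsupport fun y => a y * χ (u i y)
    · simp only [← Finset.sum_mul, p3 _ (.inl (a3 (tsupport_mul_subset_left q))), one_mul]
    · simp [svP_zero q])
  have i0 : 0 ≤ ∫ z, 2 * Real.exp (f (ι z)) * ζ z ^ 2 ∂vol (pull ι g) :=
    integral_nonneg fun z => by positivity
  have e1 : ∫ z, svP (pull ι g) (fun z => f (ι z)) ζ (fun z => P (ι z) - C / S ^ 2) z
      ∂vol (pull ι g) =
      (∫ z, svP (pull ι g) (fun z => f (ι z)) ζ (fun z => P (ι z)) z ∂vol (pull ι g)) +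
        C / S ^ 2 / 2 * ∫ z, 2 * Real.exp (f (ι z)) * ζ z ^ 2 ∂vol (pull ι g) := by
    rw [← integral_const_mul, ← integral_add (int_svP hγ f1 hζ hc P1)
      ((hγ.integrable_supp c2 (HasCompactSupport.intro hc z0)).const_mul _)]
    exact integral_congr_ae (.of_forall fun z => by simp only [svP]; ring)
  refine le_of_le_of_eq ?_ e1.symm
  refine nonneg_of_mul_nonneg_left ?_ x3
  nlinarith [mul_le_mul_of_nonneg_left x4 i0]

end Vale.Agent.P366M.Gr
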