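import Vale.Agent.P210L.Tri
import Vale.Agent.P210L.Stb
import Vale.Agent.P366C.Str
import Vale.Agent.P366C.Nul1
import Vale.Agent.P366R.Rgc3

/-!
# P210L: the limit cylinder of a family of capillary graphs
-/

open MeasureTheory Metric Filter Topology Set
open scoped ContDiff
open Vale.Agent.P366.Stmt (E)
open Vale.Agent.P366D (Rf Mc Sub pull snc Null Par)
open Vale.Agent.P366M Vale.Agent.P366M.Gr Vale.Agent.P366M.An
open Vale.Agent.P366C (cs Nm Cf Rc null_of_loc null_mono null_img null_empty not_bad_far)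
open Vale.Agent.P366L (Bad)

noncomputable section

namespace Vale.Agent.P210L

variable {n : ℕ} {X : Type} [Mf0 n X] {I : Type}

/-- a family of capillary graphs which becomes vertical; all slabs lie in the compact set `K` -/
structure Vf (𝒰 : Ultrafilter I) (g : Fld n X) (f h : X → ℝ) (u : I → X → ℝ) (c ε : I → ℝ)
    (O K : Set X) (Λ : ℝ) : Prop where
  met : Met g
  smf : Smooth f
  smh : Smooth h
  smu : ∀ i, Smooth (u i)
  opn : IsOpen O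
  cpt : IsCompact K
  sub : K ⊆ O
  c0 : Tendsto c 𝒰 (𝓝 0)
  ε0 : Tendsto ε 𝒰 (𝓝 0)
  εp : ∀ i, 0 ≤ ε i
  bd : ∀ᶠ i in (𝒰 : Filter I), ∀ x ∈ O, |hw g f (u i) x| ≤ Λ
  eq : ∀ S, ∀ᶠ i in (𝒰 : Filter I), ∀ x ∈ O, |u i x| < S →
    hw g f (u i) x = h x + c i + ε i * u i x
  cf : ∀ S, ∀ᶠ i in (𝒰 : Filter I), ∀ x, |u i x| ≤ S → x ∈ K
  vol : ∀ S, Tendsto (fun i => vol g {x | |u i x| < S}) 𝒰 (𝓝 0)

/-- in some normalised chart the point is not bad -/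
def Gd (𝒰 : Ultrafilter I) (g : Fld n X) (f : X → ℝ) (u : I → X → ℝ) (ε₀ : ℝ) (x : X) : Prop :=
  ∃ e ∈ At X, x ∈ e.source ∧ ∃ κ : ℝ, Nm (rep e g) (fun y => loc e f y + κ) ε₀ (e x) ∧
    snc (e x) 0 ∉ Bad 𝒰 (fun i => cs (rep e g) (fun y => loc e f y + κ) (loc e (u i))) ε₀

variable {𝒰 : Ultrafilter I} {g : Fld n X} {f h : X → ℝ} {u : I → X → ℝ} {c ε : I → ℝ}
  {O K : Set X} {Λ ε₀ : ℝ} {e : Ch n X} {x : X}

namespace Vf

variable (F : Vf 𝒰 g f h u c ε O K Λ)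
include F

theorem chart (he : e ∈ At X) (κ S : ℝ) {B B' : Set (E n)} (hB : IsCompact B)
    (hU : ∀ y ∈ B, e.symm y ∈ O) (hO : IsOpen B') (hOK : B' ⊆ B) :
    Cf 𝒰 (rep e g) (fun y => loc e f y + κ) (loc e h) (fun i => loc e (u i)) c ε B' S Λ := by
  have hG := F.met.rep he
  have sf : Smooth fun x => f x + κ := CD.add F.smf cd_const
  have e1 : ∀ i y, P366P.hw (rep e g) (fun y => loc e f y + κ) (loc e (u i)) y =
      hw g f (u i) (e.symm y) := fun i y => by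
    rw [← hw_add_w g f _ κ]
    exact (congrFun (loc_hw F.met he sf (F.smu i)) y).symm
  refine ⟨hG, sf e he, F.smh e he, hO, fun i => F.smu i e he, F.c0, F.ε0, F.εp,
    F.bd.mono fun i hi y hy => e1 i y ▸ hi _ (hU y (hOK hy)),
    (F.eq S).mono fun i hi y hy k => by rw [e1]; exact hi _ (hU y (hOK hy)) k, ?_⟩
  obtain ⟨a, c0, hc⟩ := hB.exists_forall_le' hG.sm_dens.cont.continuousOn (a := 0)
    fun y _ => hG.dens_pos y
  have t := ENNReal.Tendsto.const_mul (a := (ENNReal.ofReal a)⁻¹) (F.vol S)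
    (Or.inr (ENNReal.inv_ne_top.2 (ENNReal.ofReal_pos.2 c0).ne'))
  rw [mul_zero] at t
  refine tendsto_of_tendsto_of_tendsto_of_le_of_le tendsto_const_nhds t (fun _ => bot_le)
    fun i => ?_
  have mB : MeasurableSet {y | y ∈ B' ∧ |loc e (u i) y| < S} :=
    (hO.inter (isOpen_lt (F.smu i e he).continuous.abs continuous_const)).measurableSet
  simp only
  rw [← ENNReal.div_eq_inv_mul, ENNReal.le_div_iff_mul_le (Or.inl (ENNReal.ofReal_pos.2 c0).ne')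
    (Or.inl ENNReal.ofReal_ne_top), mul_comm, ← setLIntegral_const]
  refine (setLIntegral_mono' mB fun y hy => ENNReal.ofReal_le_ofReal (hc y (hOK hy.1))).trans ?_
  rw [← vol_image F.met he mB]
  refine measure_mono ?_
  rintro _ ⟨y, hy, rfl⟩
  exact hy.2

theorem la_sub : La 𝒰 u ⊆ K := fun x hx => by_contra fun q => by
  obtain ⟨i, ⟨y, a, b⟩, k⟩ := ((hx _ (F.cpt.isClosed.isOpen_compl.mem_nhds q) 1 one_pos).and
    (F.cf 1)).exists
  exact a (k y b.le)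

theorem cpt_la : IsCompact (La 𝒰 u) := F.cpt.of_isClosed_subset (isClosed_La _ _) F.la_sub

/-- the points outside the limit are good -/
theorem gd_of (ε0 : 0 < ε₀) (hx : x ∉ La 𝒰 u) : Gd 𝒰 g f u ε₀ x := by
  obtain ⟨e, he, x0, κ, hN⟩ := NulH.exists_nm F.met F.smf x
  simp only [La, mem_ofPred_eq, not_forall] at hx
  obtain ⟨V, hV, r, r0, hr⟩ := hx
  obtain ⟨ρ, ρ0, hρ⟩ := nhds_basis_ball.eventually_iff.1 ((ev_iff he).1 (x0 ▸ hV))
  have ex : e x = 0 := by rw [← x0, right_inv he]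
  refine ⟨e, he, x0 ▸ symm_mem he 0, κ, ex ▸ (hN ε₀ ε0).self_of_nhds, ?_⟩
  rw [ex]
  refine not_bad_far (F.met.rep he) (ContDiff.add (F.smf e he) contDiff_const)
    (fun i => F.smu i e he) (lt_min ρ0 r0) ε0.le
    ((Ultrafilter.eventually_not.2 hr).mono fun i hi y hy => ?_)
  rw [sub_zero]
  exact (min_le_right _ _).trans (not_lt.1 fun q =>
    hi ⟨_, hρ (ball_subset_ball (min_le_left _ _) hy), q⟩)

end Vf

variable {k : ℕ} {X : Type} [Mf0 (k + 1) X] {g : Fld (k + 1) X} {f h : X → ℝ} {u : I → X → ℝ}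
  {O K : Set X}

/-- the singular set is small -/
theorem Vf.nul (F : Vf 𝒰 g f h u c ε O K Λ) (ε0 : 0 < ε₀) (ε1 : ε₀ ≤ 1 / 2) {e : Ch (k + 1) X}
    (he : e ∈ At X) :
    Null ((k : ℝ) - 15 / 4) (e.symm ⁻¹' closure {x | x ∈ K ∧ ¬Gd 𝒰 g f u ε₀ x}) := by
  refine null_of_loc fun y => ?_
  by_cases hK : e.symm y ∈ K
  swap
  · refine ⟨_, (cont_symm he).continuousAt.preimage_mem_nhds
      (F.cpt.isClosed.isOpen_compl.mem_nhds hK), null_mono null_empty fun z hz => ?_⟩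
    exact hz.2 (closure_minimal (fun _ q => q.1) F.cpt.isClosed hz.1)
  obtain ⟨e', he', x0, κ, hN⟩ := NulH.exists_nm F.met F.smf (e.symm y)
  have hs : e'.symm 0 ∈ e.source := x0 ▸ symm_mem he y
  obtain ⟨L, t, ht, hL⟩ := ((tm_cd he' he hs).of_le one_le_oo).exists_lipschitzOnWith
  obtain ⟨r, r0, hr⟩ := nhds_basis_closedBall.eventually_iff.1 (((hN ε₀ ε0).and ht).and
    ((ev_iff he').1 (x0 ▸ F.opn.mem_nhds (F.sub hK))))
  have cK := isCompact_closedBall (0 : E (k + 1))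
  have sub : closedBall (0 : E (k + 1)) (r / 2) ⊆ ball 0 r := closedBall_subset_ball (by linarith)
  have n1 := P366L.nul0 k I _ _ _ _ _ _ _ _ _ _ 0 ε₀ (F.chart he' κ 1 (cK r)
    (fun z hz => (hr hz).2) isOpen_ball ball_subset_closedBall) (fun p hp => by
      have := (hr (ball_subset_closedBall hp)).1.1
      exact ⟨this.1.trans_le ε1, this.2.trans_le ε1⟩) one_pos ε0 _ (cK (r / 2)) sub
  have n2 : Null ((k : ℝ) - 15 / 4) {z ∈ closedBall 0 (r / 2) | ¬Gd 𝒰 g f u ε₀ (e'.symm z)} := by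
    refine null_mono n1 fun z ⟨hz, hb⟩ => ⟨hz, 0, abs_zero.le, by_contra fun q => hb ?_⟩
    exact ⟨e', he', symm_mem he' z, κ, by
      rw [right_inv he']; exact ⟨(hr (ball_subset_closedBall (sub hz))).1.1, q⟩⟩
  have n3 := null_img n2 (cK (r / 2)) (fun z hz => hz.1)
    (hL.mono fun z hz => (hr (ball_subset_closedBall (sub hz.1))).1.2)
  have hs' : e.symm y ∈ e'.source := x0 ▸ symm_mem he' 0
  have v1 : ∀ᶠ w in 𝓝 y, tm e e' w ∈ closedBall 0 (r / 2) :=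
    (tm_cd he he' hs').continuousAt.eventually (closedBall_mem_nhds_of_mem (by
      rw [tm, ← x0, right_inv he']; exact mem_ball_self (half_pos r0)))
  obtain ⟨V, hV, oV, yV⟩ := _root_.mem_nhds_iff.1 (v1.and (ev_src he hs'))
  refine ⟨V, oV.mem_nhds yV, null_mono n3 ?_⟩
  rw [(openEmb_symm he).isOpenMap.preimage_closure_eq_closure_preimage (cont_symm he)]
  refine oV.closure_inter.trans (closure_mono fun w ⟨a, b⟩ => ⟨tm e e' w, ⟨(hV b).1, ?_⟩, ?_⟩)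
  · rw [symm_tm (hV b).2]; exact a.2
  · rw [tm, symm_tm (hV b).2, right_inv he]

/-- the structure at a good point, for every height of the slab -/
theorem alt (k : ℕ) : ∃ ε₀ > (0 : ℝ), ε₀ ≤ 1 / 2 ∧ ∀ {X : Type} [Mf0 (k + 1) X] {I : Type}
    {𝒰 : Ultrafilter I} {g : Fld (k + 1) X} {f h : X → ℝ} {u : I → X → ℝ} {c ε : I → ℝ}
    {O K : Set X} {Λ : ℝ}, Vf 𝒰 g f h u c ε O K Λ → ∀ p ∈ O, Gd 𝒰 g f u ε₀ p → ∀ S > (0 : ℝ),
    (∃ V ∈ 𝓝 p, ∀ᶠ i in (𝒰 : Filter I), ∀ x ∈ V, S < |u i x|) ∨ p ∈ La 𝒰 u ∧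
      ∀ D, IsClosed D → p ∉ D → ∃ e φ π y₀ r Ψ V, Par (La 𝒰 u \ D) e φ π y₀ ∧
        e.symm (φ y₀) = p ∧ RgX (𝒰 : Filter I) u S e φ π y₀ r Ψ V := by
  obtain ⟨ε₀, ε0, ε1, H⟩ := P366R.rgc k
  refine ⟨ε₀ / 2, half_pos ε0, by linarith, fun {X} _ {I 𝒰 g f h u c ε O K Λ} F p hp gd S S0 => ?_⟩
  obtain ⟨e, he, pe, κ, nm, gd⟩ := gd
  have ep : e.symm (e p) = p := e.left_inv pe
  obtain ⟨δ, δ0, hδ⟩ := nhds_basis_closedBall.eventually_iff.1
    (((cont_symm he).tendsto (e p)).eventually (F.opn.mem_nhds (by rwa [ep])))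
  have cf := F.chart he κ (S + 2) (isCompact_closedBall _ δ) (fun y hy => hδ hy) isOpen_ball
    ball_subset_closedBall
  have q0 := mem_ball_self (x := e p) δ0
  rcases H I 𝒰 _ _ _ _ _ _ _ _ _ (S + 1) (e p) cf q0
    ⟨nm.1.trans (half_lt_self ε0), nm.2.trans (half_lt_self ε0)⟩ (by linarith) (by linarith)
    (fun z hz q => gd (bad_shift cf q0 (by linarith) (half_lt_self ε0) q)) with
    ⟨V, hV, a⟩ | ⟨v, L, r, w, W, rc⟩
  · refine .inl ⟨e.symm '' V, ep ▸ (openEmb_symm he).image_mem_nhds.2 hV, a.mono fun i hi => ?_⟩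
    rintro _ ⟨y, hy, rfl⟩
    exact (lt_add_one S).trans (hi y hy)
  · refine .inr ⟨?_, fun D hD pD => ?_⟩
    · have := (la_iff (u := u) (y := 0) (s := 0) he (by linarith) rc isOpen_univ
        (.of_forall fun _ _ _ _ => rfl) (by simpa using rc.r0) (by simpa using rc.r0) trivial).2
        rc.w0.symm
      rwa [map_zero, zero_smul, add_zero, add_zero, ep] at this
    · obtain ⟨ψ, π, y₀, r', Ψ, V', a, b, c⟩ := str_loc (u := u) he S0 rc isOpen_univ trivial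
        (.of_forall fun _ _ _ _ => rfl) hD (ep.symm ▸ pD)
      exact ⟨e, ψ, π, y₀, r', Ψ, V', a, b.trans ep, c⟩

/-- the slabs concentrate on the limit -/
theorem Vf.conc (F : Vf 𝒰 g f h u c ε O K Λ) (S : ℝ) {N : Set X} (hN : IsOpen N)
    (hA : La 𝒰 u ⊆ N) : ∀ᶠ i in (𝒰 : Filter I), ∀ x, |u i x| ≤ S → x ∈ N := by
  obtain ⟨ε₀, ε0, -, H⟩ := alt k
  have := P366P.ev_cpt (l := (𝒰 : Filter I)) (P := fun i x => S < |u i x|)
    (F.cpt.diff hN) fun x hx => by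
      have hx' : x ∉ La 𝒰 u := fun q => hx.2 (hA q)
      obtain ⟨V, hV, a⟩ := (H F x (F.sub hx.1) (F.gd_of ε0 hx') (|S| + 1) (by positivity)).resolve_right
        fun q => hx' q.1
      exact eventually_prod_iff.2 ⟨_, a, _, hV, fun b _ q => by
        linarith [b _ q, le_abs_self S]⟩
  filter_upwards [this, F.cf S] with i a b x hx
  exact by_contra fun q => (a x ⟨b x hx, q⟩).not_ge hx

theorem Vf.slab (F : Vf 𝒰 g f h u c ε O K Λ) (S : ℝ) (i : I) : Slab (u i) S :=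
  ⟨isClosed_le (F.smu i).cont.abs continuous_const, fun _ _ =>
    .of_forall fun _ => CD.contDiffAt (F.smu i)⟩

/-- **the limit cylinder** -/
theorem Vf.cyl (F : Vf 𝒰 g f h u c ε O K Λ) : ∃ Sg : Set X, IsClosed Sg ∧ Sg ⊆ La 𝒰 u ∧
    (∀ e ∈ At X, Null ((k : ℝ) - 15 / 4) (e.symm ⁻¹' Sg)) ∧ ((La 𝒰 u \ Sg).Nonempty →
      ∃ (Z : Type) (_ : Mf0 k Z) (ι : Z → X) (Λ' : ℝ), Sub ι (La 𝒰 u \ Sg) ∧ Mc g ι Λ' ∧
        ∀ S > (0 : ℝ), ∀ z, Rg (𝒰 : Filter I) u S ι z) := by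
  obtain ⟨ε₀, ε0, ε1, H⟩ := alt k
  refine ⟨_, isClosed_closure, closure_minimal (fun x hx => by_contra fun q =>
    hx.2 (F.gd_of ε0 q)) (isClosed_La _ _), fun e he => F.nul ε0 ε1 he, fun hne => ?_⟩
  have str : ∀ S > (0 : ℝ), ∀ p ∈ La 𝒰 u \ closure {x | x ∈ K ∧ ¬Gd 𝒰 g f u ε₀ x},
      ∃ e φ π y₀ r Ψ V, Par (La 𝒰 u \ closure {x | x ∈ K ∧ ¬Gd 𝒰 g f u ε₀ x}) e φ π y₀ ∧
        e.symm (φ y₀) = p ∧ RgX (𝒰 : Filter I) u S e φ π y₀ r Ψ V := fun S S0 p hp => by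
    have pK := F.la_sub hp.1
    refine ((H F p (F.sub pK) (by_contra fun q => hp.2 (subset_closure ⟨pK, q⟩)) S S0).resolve_left
      fun ⟨V, hV, a⟩ => ?_).2 _ isClosed_closure hp.2
    obtain ⟨i, ⟨y, b1, b2⟩, b3⟩ := ((hp.1 V hV S S0).and a).exists
    exact lt_asymm b2 (b3 y b1)
  obtain ⟨Z, _, ι, sub, par⟩ := P366D.parm k X _ hne fun p hp => by
    obtain ⟨e, φ, π, y₀, _, _, _, a, b, -⟩ := str 1 one_pos p hp
    exact ⟨e, φ, π, y₀, a, b⟩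
  have rg : ∀ S > (0 : ℝ), ∀ z, Rg (𝒰 : Filter I) u S ι z := fun S S0 z => by
    obtain ⟨e, φ, π, y₀, r, Ψ, V, a, b, c⟩ := str S S0 (ι z) (sub.rng ▸ mem_range_self z)
    obtain ⟨c', d1, d2⟩ := par e φ π y₀ a
    exact ⟨e, φ, π, y₀, r, Ψ, V, c, c', d1, sub.emb.injective (d2.self_of_nhds.trans b), d2⟩
  obtain ⟨C, hC⟩ := F.cpt.bddAbove_image (F.met.cont_gn F.smf.one).continuousOn
  refine ⟨Z, inferInstance, ι, Λ + C, sub, mcl I _ k X Z g ι _ u 1 _ F.met sub zero_le_one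
    (.of_forall (F.slab 1)) (rg 1 one_pos) fun z => ⟨univ, univ_mem, ?_⟩, rg⟩
  filter_upwards [F.bd, F.cf 1] with i h1 h2 x _ hx
  have h3 := h1 x (F.sub (h2 x hx))
  rw [hw] at h3
  have h4 := (abs_dn_le F.met (u i) f x).trans (hC ⟨x, h2 x hx, rfl⟩)
  have h5 := abs_sub (dv g (nv g (u i)) x + dn g (u i) f x) (dn g (u i) f x)
  rw [add_sub_cancel_right] at h5
  linarith

end Vale.Agent.P210L
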