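import Vale.Agent.P210E.Zs
import Vale.Agent.P210N.Zst
import Vale.Agent.P210F.Jet

/-!
# P210L: the state on the hypersurface
-/

open Filter Topology Set
open scoped ContDiff
open Vale.Agent.P366D (Rf Mc Sub pull smooth_comp)
open Vale.Agent.P366M Vale.Agent.P366M.Gr Vale.Agent.P366M.An Vale.Agent.P366M.Y.C
open Vale.Agent.P210G Vale.Agent.P210H Vale.Agent.P210U Vale.Agent.P210E
open Fin (last)

noncomputable section

namespace Vale.Agent.P210L

theorem sep_alg {k : ℕ} {a : ℝ} {b b₀ : Fin k → ℝ} (h : 7 / 16 < ∑ j, b j ^ 2 + a ^ 2)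
    (h0 : ∑ j, b₀ j ^ 2 ≤ 1 / 256) (h1 : ∑ j, (b j - b₀ j) ^ 2 ≤ 1 / 16) (a0 : 0 < a) :
    1 / 2 ≤ a := by
  have : ∑ j, b j ^ 2 ≤ 2 * ∑ j, (b j - b₀ j) ^ 2 + 2 * ∑ j, b₀ j ^ 2 := by
    rw [Finset.mul_sum, Finset.mul_sum, ← Finset.sum_add_distrib]
    exact Finset.sum_le_sum fun j _ => by nlinarith [sq_nonneg (b j - 2 * b₀ j)]
  nlinarith

/-- **ZA** -/
theorem za : ZA := by
  intro k X _ d Z _ ι ok rg
  have F := ok.nck.vf
  have hι := rg.sub
  have hγ := hι.met F.met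
  have H₁ := ok.H₁
  have H₂ := ok.H₂
  have l0 := ok.bd.ok.l0
  have sl := ok.bd.ok.sml
  have mA : ∀ z, ι z ∈ d.A \ d.S := fun z => hι.rng ▸ mem_range_self z
  have mK : ∀ z, ι z ∈ d.K₀ := fun z => F.la_sub (mA z).1
  have an := fun z => ok.nck.ann _ (F.sub (mK z))
  have m4 : ∀ z, ι z ∈ K4 d.G d.O := fun z => ⟨(an z).1, by linarith [(an z).2.2]⟩
  have cp : ∀ T, IsClosed T → (∀ x ∈ d.S, x ∉ T) → IsCompact (ι ⁻¹' T) := fun T hT hS => by
    have := hι.emb.isInducing.isCompact_preimage' (F.cpt_la.inter_right hT)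
      (hι.rng ▸ fun x hx => ⟨hx.1, fun q => hS x q hx.2⟩)
    rwa [preimage_inter, eq_univ_of_forall (s := ι ⁻¹' La _ d.u) fun z => (mA z).1,
      univ_inter] at this
  have c₁ : IsClosed {x | d.w₁ x ≤ 11 / 8} := isClosed_le H₁.smw.cont continuous_const
  have c₂ : IsClosed {x | d.w₂ x ≤ 1} := isClosed_le H₂.smw.cont continuous_const
  have cC := cp _ (c₁.union c₂) fun x hx q => q.elim (fun a => by
    linarith [H₁.inn x hx, mem_ofPred_eq ▸ a]) fun a => by linarith [H₂.inn x hx, mem_ofPred_eq ▸ a]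
  have hP : Smooth fun x => (d.a - d.η) / d.l x ^ 2 :=
    CD.div cd_const (CD.pow sl 2) fun x => (pow_pos (l0 x) 2).ne'
  obtain ⟨l, hl0, hl⟩ := F.state k.succ_pos hι rg.rg hP isOpen_univ
    (fun z _ => Eventually.mono (F.opn.mem_nhds (F.sub (mK z))) ok.nck.pos) cC (subset_univ _) ok.δ0
  obtain ⟨D⟩ := P210V.exists_Ex hι cC isOpen_univ (subset_univ _)
  have sL := D.sm_eF hl0
  have sW : Smooth fun y => 1 / 2 * Real.log (d.W₁ y) + 1 / 4 * Real.log (d.W₂ y) :=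
    CD.add (CD.mul cd_const (CD.log H₁.smW fun y => by linarith [H₁.W1 y]))
      (CD.mul cd_const (CD.log H₂.smW fun y => by linarith [H₂.W1 y]))
  have sF := CD.add (CD.add F.smf sL) sW
  have eO : d.Om (D.eF l) = fun j y => -pd j (fun y => d.f y + D.eF l y +
      (1 / 2 * Real.log (d.W₁ y) + 1 / 4 * Real.log (d.W₂ y))) y := by
    funext j y
    rw [Da.Om, pd_add (Smooth.diff (CD.add F.smf sL) y) (sW.diff y), pd_add (F.smf.diff y) (sL.diff y)]
    ring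
  have cO : CC ∞ (d.Om (D.eF l)) := eO ▸ (cc_df sF).neg
  have a1 : ∀ i y, pullC ι (d.Om (D.eF l)) i y = -pd i (fun y => d.f (ι y) + D.eF l (ι y) +
      (1 / 2 * Real.log (d.W₁ (ι y)) + 1 / 4 * Real.log (d.W₂ (ι y)))) y := fun i y => by
    rw [eO, ← pullC_pd (Smooth.diff sF _) (hι.sm y)]
    simp only [pullC, mul_neg, Finset.sum_neg_distrib]
  have key : ∀ z, ι z ∈ {x | d.w₁ x ≤ 11 / 8} ∪ {x | d.w₂ x ≤ 1} →
      d.VA (ι z) + (gn (pull ι d.g) (fun z => d.W₂ (ι z)) z / d.W₂ (ι z)) ^ 2 / 8 <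
        Rv (pull ι d.g) (pullC ι (d.Om (D.eF l))) z ∧ (ι z ∉ d.C₂ →
      d.VA (ι z) + (gn (pull ι d.g) (fun z => d.W₁ (ι z)) z / d.W₁ (ι z)) ^ 2 / 2 ≤
        Rv (pull ι d.g) (pullC ι (d.Om (D.eF l))) z) := fun z hz => by
    have ci := hι.emb.continuous.continuousAt (x := z)
    have a2 : (fun y => d.f (ι y) + D.eF l (ι y) + (1 / 2 * Real.log (d.W₁ (ι y)) +
        1 / 4 * Real.log (d.W₂ (ι y)))) =ᶠ[𝓝 z] fun y => d.f (ι y) + l y +
        (1 / 2 * Real.log (d.W₁ (ι y)) + 1 / 4 * Real.log (d.W₂ (ι y))) :=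
      (ci.eventually (D.wt_one hz)).mono fun y hy => by simp only [D.eF_ι, hy, one_mul]
    have a3 : gn (pull ι d.g) (fun y => d.f (ι y)) z ≤ d.B :=
      (P366H.gn_res F.met hγ (hι.sm z) (F.smf.diff _)).trans
        ((le_add_of_nonneg_left (abs_nonneg _)).trans (ok.fB _ (mK z)))
    have key := fun c hc => P210N.zst_pt (c := c) hγ (smooth_comp hι.sm F.smf) hl0
      (smooth_comp hι.sm H₁.smW) (smooth_comp hι.sm H₂.smW) (fun y => H₁.W1 _) (fun y => H₂.W1 _) hc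
      a3 (H₁.sub Z ι hγ rg.mc z (hι.sm z)).sup (H₂.sub Z ι hγ rg.mc z (hι.sm z)).sup a1
    have b1 := hl z hz
    have b2 := div_le_self ok.δ0.le (H₁.W1 (ι z))
    have b3 := div_le_self ok.δ0.le (H₂.W1 (ι z))
    have b4 := ok.δl _ (m4 z)
    have b5 : (d.a - 2 * d.η) / d.l (ι z) ^ 2 = (d.a - d.η) / d.l (ι z) ^ 2 - d.η / d.l (ι z) ^ 2 := by
      ring
    have b6 := ok.δ0
    rw [Da.VA, b5]
    refine ⟨?_, fun hn => ?_⟩
    · have k1 := key _ (by norm_num) a2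
      rw [sub_div, mul_div_assoc, zero_mul, sub_zero] at k1
      linarith [sq_nonneg (gn (pull ι d.g) (fun z => d.W₁ (ι z)) z / d.W₁ (ι z))]
    · have k1 := key 0 le_rfl (a2.trans ((ci.eventually
        (H₂.cpt.isClosed.isOpen_compl.mem_nhds hn)).mono fun y hy => by
          simp only [(H₂.out _ hy).1, Real.log_one, mul_zero]))
      rw [sub_div, mul_div_assoc] at k1
      linarith
  have sD : ∀ j, Smooth (d.D j) := fun j => CD.sub (ok.bd.smG _) cd_const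
  refine ⟨_, sL, ⟨⟨hγ, cO.pull le_rfl hι.sm, smooth_comp hι.sm sl, fun z => l0 _⟩,
    smooth_comp hι.sm (ok.bd.smG _), fun j => smooth_comp hι.sm (sD j), smooth_comp hι.sm H₁.smW,
    smooth_comp hι.sm H₁.smw, cp _ c₁ fun x hx q => by linarith [H₁.inn x hx, mem_ofPred_eq ▸ q],
    fun z => H₁.W1 _, fun z => H₁.lrg _, fun z hz => (hι.sm z).cAt le_rfl (H₁.smh _ hz),
    fun z => H₁.h0 _, fun z => H₁.low _, fun c => (H₁.cls c).imp fun b hb => ⟨hb.1, fun z => hb.2 _⟩,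
    fun z hz => (neg_le_neg ok.δ1).trans ((H₁.sub Z ι hγ rg.mc z (hι.sm z)).pos hz),
    fun z => (H₁.sub Z ι hγ rg.mc z (hι.sm z)).big, fun z hz => ok.s₁ _ (by_contra fun q => by
      linarith [(H₁.out _ q).2.1]), fun z _ h0 h1 => sep_alg (b := fun j => d.G j.castSucc (ι z))
        ((an z).2.1.trans_eq (Fin.sum_univ_castSucc _)) ok.b0 h1 h0, fun z hz =>
      ⟨(key z (.inl hz)).2 fun q => by linarith [ok.s₂ _ q], ok.l0 _ (m4 z),
        (P366H.gn_res F.met hγ (hι.sm z) (sl.diff _)).trans (ok.bd.bd _ (m4 z)).2.1, fun j => ?_⟩⟩,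
    fun S => ?_⟩
  · refine (mul_le_mul_of_nonneg_left ((P366H.gn_res F.met hγ (hι.sm z) ((sD j).diff _)).trans_eq ?_)
      (l0 _).le).trans ((ok.bd.bd _ (m4 z)).2.2 j.castSucc)
    rw [gn_of_pd (u := d.D j) (s := 1) (u' := d.G j.castSucc)
      fun i => (pd_sub_const _ i).trans (one_mul _).symm, abs_one, one_mul]
  have cV : Continuous d.VA := (continuous_const.div (sl.cont.pow 2) fun x => (pow_pos (l0 x) 2).ne').add
    (continuous_const.mul ((H₁.smW.cont.sub continuous_const).div H₁.smW.cont fun x => by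
      linarith [H₁.W1 x]))
  refine ((P366P.ev_cpt (P := fun i x => |d.u i x| ≤ S → d.VA x +
    (gn (d.gi i) d.W₂ x / d.W₂ x) ^ 2 / 8 ≤ Rv (d.gi i) (d.Om (D.eF l)) x) (F.cpt.inter_right c₂)
    fun x hx => ?_).and (F.cf S)).mono fun i q x h1 h2 => q.1 x ⟨q.2 x h1, h2⟩ h1
  by_cases hA : x ∈ d.A
  · obtain ⟨z, rfl⟩ : x ∈ range ι := hι.rng ▸ ⟨hA, fun q => by
      linarith [H₂.inn x q, mem_ofPred_eq ▸ hx.2]⟩
    obtain ⟨j1, j2⟩ := P210F.jet _ _ _ _ _ ι _ d.u (|S| + 1) z d.g hι F.smu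
      (rg.rg _ (by positivity) z) F.met
    have t0 : Tendsto Prod.snd (nk (hyperfilter ℕ : Filter ℕ) d.u (|S| + 1) (ι z)) (𝓝 (ι z)) :=
      tendsto_snd.mono_left inf_le_left
    have t1 := ((cV.tendsto _).comp t0).add ((((j2 _ H₂.smW).div ((H₂.smW.cont.tendsto _).comp t0)
      (by linarith [H₂.W1 (ι z)])).pow 2).div_const 8)
    refine (eventually_inf_principal.1 (t1.eventually_lt (j1 _ cO) (key z (.inr hx.2)).1)).mono
      fun p q h => (q (h.trans ((le_abs_self S).trans (le_add_of_nonneg_right zero_le_one)))).le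
  · obtain ⟨V, hV, cl, sb⟩ := exists_mem_nhds_isClosed_subset ((isClosed_La _ _).isOpen_compl.mem_nhds hA)
    exact ((F.conc S cl.isOpen_compl fun y hy q => sb q hy).prod_mk hV).mono
      fun p q h => (q.1 _ h q.2).elim

end Vale.Agent.P210L
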