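import Vale.Agent.P210L.Stb
import Vale.Agent.P366D.Lbar
import Vale.Agent.P366Q.T.Subs
import Vale.Agent.P366M.Sard

/-!
# P210L: the new part of the weight; closing up a compact part of a manifold
-/

open MeasureTheory Metric Filter Topology Set
open scoped ContDiff
open Vale.Agent.P366M Vale.Agent.P366M.Gr
open Vale.Agent.P366D (Rf Sec SmM IsoM dbl smooth_comp wl_exp exp_half Rf_exp)

noncomputable section

namespace Vale.Agent.P210L

variable {k : ℕ} {X : Type} [Mf0 k X] {g : Fld k X} {f P : X → ℝ} {O K : Set X} {ε : ℝ}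

/-- stability gives a positive solution -/
theorem stb_pos [CompactSpace X] (h : StbP g f O P) (hk : 0 < k) (hg : Met g) (hf : Smooth f)
    (hP : Smooth P) (hO : IsOpen O) (hK : IsCompact K) (hKO : K ⊆ O) (hε : 0 < ε) :
    ∃ u, Smooth u ∧ (∀ x, 0 < u x) ∧
      ∀ x ∈ K, lap g u x + ip g f u x = (Rf g f x - P x + ε) / 2 * u x - 1 := by
  obtain ⟨ψ, s1, -, s2, s3, s4⟩ := exists_cut hK hO hKO
  have sU : Smooth fun x => Real.exp (f x / 2) := CD.exp (CD.div_const hf 2)
  have sR := sm_Rf hg hf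
  have sW : Smooth fun x =>
      (Rf g f x - P x) * ψ x ^ 2 / 2 - ψ x * (lap g ψ x + ip g f ψ x) + ε / 2 :=
    CD.add (CD.sub (CD.div_const (CD.mul (CD.sub sR hP) (CD.pow s1 2)) 2)
      (CD.mul s1 (CD.add (hg.sm_lap s1) (hg.sm_ip hf s1)))) cd_const
  obtain ⟨u, u1, u2⟩ := P366D.pos subs hk hg sU (fun _ => Real.exp_pos _) sW (c := ε / 2)
    (by linarith) fun ζ hζ => by
      have it : ∀ {f : X → ℝ}, Continuous f → Integrable f (vol g) := fun hf =>
        hg.integrable_supp hf (.of_compactSpace _)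
      have s5 : Smooth fun x => ψ x * ζ x := CD.mul s1 hζ
      have s6 : Smooth fun x => ζ x * (ψ x * ζ x) := CD.mul hζ s5
      have k1 := h _ s5 (.of_compactSpace _) ((tsupport_mul_subset_left).trans s2)
      have k2 := hg.ibp_wl' s6.llip (.of_compactSpace _) sU.one s1.two
      have i1 := int_svP hg hf s5 (.of_compactSpace _) hP.cont
      have i2 := it (s6.cont.mul (hg.cont_wl sU.one s1.two))
      have i3 := it ((sU.cont.pow 2).mul (hg.cont_ip s6.one s1.one))
      have i4 := it ((sU.cont.pow 2).mul (hζ.cont.pow 2))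
      have i5 := it ((sU.cont.pow 2).mul ((hg.cont_ip hζ.one hζ.one).add
        (sW.cont.mul (hζ.cont.pow 2))))
      have k3 := integral_mono (((i4.const_mul (ε / 2)).add (i1.const_mul (1 / 2))).sub (i2.add i3))
        i5 fun x => by
          have := mul_nonneg (mul_nonneg (sq_nonneg (Real.exp (f x / 2)))
            (show 0 ≤ 1 - ψ x ^ 2 by nlinarith [(s3 x).1, (s3 x).2])) (hg.ip_nonneg ζ x)
          simp only [Pi.add_apply, Pi.sub_apply, Pi.mul_apply, Pi.pow_apply, wl_exp hg hf (s1.c2 x),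
            svP, ← exp_half (f x), ip_mul_left (hζ.diff x) (s5.diff x),
            ip_mul_left (s1.diff x) (hζ.diff x), ip_mul_right (s1.diff x) (hζ.diff x),
            hg.ip_sy ψ ζ x]
          linarith
      rw [integral_sub' ((i4.const_mul _).add (i1.const_mul _)) (i2.add i3),
        integral_add' (i4.const_mul _) (i1.const_mul _), integral_add' i2 i3, integral_const_mul,
        integral_const_mul] at k3
      simp only [Pi.add_apply, Pi.mul_apply, Pi.pow_apply] at k3
      linarith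
  refine ⟨u, u1, fun x => (u2 x).1, fun x hx => ?_⟩
  have := (u2 x).2
  rw [wl_exp hg hf (u1.c2 x), mul_right_inj' (by positivity), lap_congr (s4 x hx), lap_const,
    ip_congr .rfl (s4 x hx), ip_const_right, (s4 x hx).eq_of_nhds] at this
  linarith

/-- the new part of the weight on a closed manifold -/
theorem lbar_cpt [CompactSpace X] (h : StbP g f O P) (hk : 0 < k) (hg : Met g) (hf : Smooth f)
    (hP : Smooth P) (hO : IsOpen O) (hK : IsCompact K) (hKO : K ⊆ O) (hε : 0 < ε) :
    ∃ l, Smooth l ∧ ∀ x ∈ K, P x - ε < Rf g (fun y => f y + l y) x - ip g l l x := by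
  obtain ⟨u, u1, u2, u3⟩ := stb_pos h hk hg hf hP hO hK hKO hε
  have hl : Smooth fun x => Real.log (u x) := CD.log u1 fun x => (u2 x).ne'
  refine ⟨_, hl, fun x hx => lt_of_mul_lt_mul_left ?_ (u2 x).le⟩
  rw [Rf_exp hg hf hl (t := 1) (funext fun x => by rw [Real.exp_log (u2 x), one_mul]), u3 x hx]
  linarith

/-- **a compact set lies in an open set which is isometric to a part of a closed manifold** -/
theorem closeup (hg : Met g) (hK : IsCompact K) (hO : IsOpen O) (hKO : K ⊆ O)
    (hne : K.Nonempty) : ∃ (X' : Type) (_ : Mf k X') (_ : CompactSpace X') (π : X' → X)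
      (σ : X → X') (V : Set X), K ⊆ V ∧ V ⊆ O ∧ Sec π σ g bg V := by
  obtain ⟨χ, s1, s2, s3, -, s4⟩ := exists_cut hK hO hKO
  have sw : Smooth fun x => -χ x := CD.neg s1
  obtain ⟨t, ⟨t1, t2⟩, reg⟩ := exists_regular sw (show (-1 / 2 : ℝ) < -1 / 4 by norm_num)
  obtain ⟨z₀, hz₀⟩ := hne
  have sub : ∀ {c : ℝ}, c < 0 → {z | -χ z ≤ c} ⊆ tsupport χ := fun hc z hz =>
    subset_tsupport _ fun q => by
      have : -χ z ≤ _ := hz
      rw [q] at this
      linarith
  obtain ⟨X', _, _, π, σ, s⟩ := dbl hg sw (show (-3 / 4 : ℝ) < t by linarith)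
    (s2.isCompact.of_isClosed_subset (isClosed_le sw.cont continuous_const) (sub (by linarith))) reg
    (z₀ := z₀) (by rw [(s4 z₀ hz₀).self_of_nhds]; linarith)
  refine ⟨X', inferInstance, inferInstance, π, σ, {z | -χ z < -3 / 4}, fun z hz => ?_,
    fun z hz => s3 (sub (show (-3 / 4 : ℝ) < 0 by norm_num) (show -χ z ≤ _ from le_of_lt hz)), s⟩
  show -χ z < _
  rw [(s4 z hz).self_of_nhds]
  norm_num

variable {X' : Type} [Mf0 k X'] {π : X' → X} {σ : X → X'} {g' : Fld k X'} {V : Set X}

theorem sec_stb (h : Sec π σ g g' V) (hf : Smooth f) (hVO : V ⊆ O) (hs : StbP g f O P) :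
    StbP g' (fun x => f (π x)) (σ '' V) fun x => P (π x) := fun ζ h1 h2 h3 => by
  classical
  have cπ : Continuous π := continuous_iff_continuousAt.2 fun x => (h.sm x).ct
  have hV : π '' (σ '' V) = V := by
    rw [image_image, (image_congr h.rt).trans (image_id' V)]
  have b1 : Function.support (V.indicator fun z => ζ (σ z)) ⊆ π '' tsupport ζ := fun z hz => by
    have hz' := support_indicator_subset hz
    rw [Function.mem_support, indicator_of_mem hz'] at hz
    exact ⟨σ z, subset_tsupport _ hz, h.rt z hz'⟩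
  have b2 := closure_minimal b1 (h2.image cπ).isClosed
  have b3 : tsupport (V.indicator fun z => ζ (σ z)) ⊆ V :=
    b2.trans ((image_mono h3).trans hV.le)
  have b4 : Smooth (V.indicator fun z => ζ (σ z)) := cd_of_cAt le_rfl fun z => by
    by_cases hz : z ∈ V
    · exact ((h.sms z hz).cAt le_rfl h1.contDiffAt).congr_of_eventuallyEq
        (eventually_of_mem (h.opn.mem_nhds hz) fun _ k => indicator_of_mem k _)
    · exact cAt_const.congr_of_eventuallyEq (notMem_tsupport_iff_eventuallyEq.1 fun k => hz (b3 k))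
  have b5 := hs _ b4 ((h2.image cπ).of_isClosed_subset (isClosed_tsupport _) b2) (b3.trans hVO)
  have hU := h.isOpen h.opn subset_rfl
  rw [← setIntegral_eq_integral_of_forall_compl_eq_zero (s := π '' (σ '' V))
    (fun z hz => svP_zero (fun k => hz (hV.ge (b3 k))) _), integral_iso hU.measurableSet
    (by rintro _ ⟨z, hz, rfl⟩; exact h.iso z hz) (by
      rintro _ ⟨z, hz, rfl⟩ _ ⟨z', hz', rfl⟩ e
      rw [h.rt z hz, h.rt z' hz'] at e
      rw [e])] at b5
  rw [← setIntegral_eq_integral_of_forall_compl_eq_zero (s := σ '' V)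
    fun x hx => svP_zero (fun k => hx (h3 k)) _]
  refine b5.trans_eq (setIntegral_congr_fun hU.measurableSet ?_)
  rintro _ ⟨z, hz, rfl⟩
  have e : ζ =ᶠ[𝓝 (σ z)] fun x => V.indicator (fun z => ζ (σ z)) (π x) := by
    filter_upwards [h.lf z hz, (h.sm _).ct.eventually (h.opn.mem_nhds (by rwa [h.rt z hz]))]
      with x a b
    rw [indicator_of_mem b, a]
  simp only [svP]
  rw [(h.iso z hz).ip (b4.diff _) (b4.diff _) e e, (h.iso z hz).Rf (hf.c2 _) .rfl, e.self_of_nhds]

/-- functions on the closed manifold come from functions on the given one -/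
theorem sec_down (h : Sec π σ g g' V) (hK : IsCompact K) (hKV : K ⊆ V) {u : X' → ℝ}
    (hu : Smooth u) : ∃ u' : X → ℝ, Smooth u' ∧ ∀ z ∈ K, (u' =ᶠ[𝓝 z] fun y => u (σ y)) ∧
      u =ᶠ[𝓝 (σ z)] fun x => u' (π x) := by
  obtain ⟨u', a, b⟩ := exists_smooth (u := fun y => u (σ y)) hK fun z hz =>
    eventually_of_mem (h.opn.mem_nhds (hKV hz)) fun y hy => (h.sms y hy).cAt le_rfl hu.contDiffAt
  refine ⟨u', a, fun z hz => ⟨b z hz, ?_⟩⟩
  have c : Tendsto π (𝓝 (σ z)) (𝓝 z) := by
    have := (h.sm (σ z)).ct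
    rwa [ContinuousAt, h.rt z (hKV hz)] at this
  filter_upwards [h.lf z (hKV hz), c.eventually (b z hz)] with x p q
  rw [q, p]

/-- **the new part of the weight** -/
theorem lbarP (h : StbP g f O P) (hk : 0 < k) (hg : Met g) (hf : Smooth f)
    (hP : Smooth P) (hO : IsOpen O) (hK : IsCompact K) (hKO : K ⊆ O) (hε : 0 < ε) :
    ∃ l, Smooth l ∧ ∀ x ∈ K, P x - ε < Rf g (fun y => f y + l y) x - ip g l l x := by
  rcases K.eq_empty_or_nonempty with rfl | hne
  · exact ⟨fun _ => 0, cd_const, by simp⟩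
  obtain ⟨X', _, _, π, σ, V, a, b, s⟩ := closeup hg hK hO hKO hne
  obtain ⟨l, l1, l2⟩ := lbar_cpt (sec_stb s hf b h) hk bg_met (smooth_comp s.sm hf)
    (smooth_comp s.sm hP) (s.isOpen s.opn subset_rfl)
    (hK.image_of_continuousOn (s.contOn.mono a)) (image_mono a) hε
  obtain ⟨l', p, q⟩ := sec_down s hK a l1
  refine ⟨l', p, fun z hz => ?_⟩
  have i := s.iso z (a hz)
  have := l2 _ ⟨z, hz, rfl⟩
  rwa [i.Rf (u := fun y => f y + l' y) (Smooth.c2 (CD.add hf p) _)
    ((q z hz).2.mono fun x hx => by simp only [hx]), i.ip (p.diff _) (p.diff _) (q z hz).2 (q z hz).2,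
    s.rt z (a hz)] at this

end Vale.Agent.P210L
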