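import Vale.Agent.P210L.Cyl
import Vale.Agent.P210L.Lbar

/-!
# P210L: the choice of the levels; the state on the limit hypersurface
-/

open MeasureTheory Metric Filter Topology Set
open scoped ContDiff
open Vale.Agent.P366D (Rf Mc Sub pull smooth_comp)
open Vale.Agent.P366M Vale.Agent.P366M.Gr Vale.Agent.P366M.An

noncomputable section

namespace Vale.Agent.P210L

/-- one of `N` disjoint slabs has a small measure -/
theorem pigeon {α : Type} [MeasurableSpace α] (μ : Measure α) [IsFiniteMeasure μ] {w : α → ℝ}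
    (hw : Measurable w) {N : ℕ} (hN : 0 < N) (a : ℝ) {D : ℝ} (hD : 0 < D) :
    ∃ t, a + D ≤ t ∧ t + D ≤ a + 2 * N * D ∧ μ.real {x | |w x - t| < D} ≤ μ.real univ / N := by
  have m : ∀ j : ℕ, MeasurableSet {x | |w x - (a + (2 * j + 1) * D)| < D} := fun j =>
    measurableSet_lt (hw.sub_const _).abs measurable_const
  have h1 : ∑ j ∈ Finset.range N, μ.real {x | |w x - (a + (2 * j + 1) * D)| < D} ≤ μ.real univ := by
    rw [← measureReal_biUnion_finset _ (fun j _ => m j) fun j _ => measure_ne_top _ _]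
    · exact measureReal_mono (subset_univ _)
    · intro i _ j _ hij
      refine disjoint_left.2 fun x a b => ?_
      have a := abs_lt.1 (show |w x - _| < D from a)
      have b := abs_lt.1 (show |w x - _| < D from b)
      rcases lt_or_gt_of_ne hij with q | q
      · have : (i : ℝ) + 1 ≤ j := by exact_mod_cast q
        nlinarith
      · have : (j : ℝ) + 1 ≤ i := by exact_mod_cast q
        nlinarith
  obtain ⟨j, hj, h2⟩ := Finset.exists_le_of_sum_le (s := Finset.range N)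
    (f := fun j : ℕ => μ.real {x | |w x - (a + (2 * j + 1) * D)| < D}) (g := fun _ => μ.real univ / N)
    ⟨0, Finset.mem_range.2 hN⟩ (h1.trans_eq (by
      rw [Finset.sum_const, Finset.card_range, nsmul_eq_mul, mul_div_cancel₀ _ (by positivity)]))
  have : (j : ℝ) + 1 ≤ N := by exact_mod_cast Finset.mem_range.1 hj
  exact ⟨_, by nlinarith [j.cast_nonneg (α := ℝ)], by nlinarith, h2⟩

/-- the levels -/
theorem levels {α : Type} [MeasurableSpace α] (μ : Measure α) [IsFiniteMeasure μ] {w : ℕ → α → ℝ}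
    (hw : ∀ i, Measurable (w i)) {L : ℕ → ℝ} (hL : Tendsto L atTop atTop) : ∃ t : ℕ → ℝ, ∀ S,
      (∀ᶠ i in atTop, |t i| + S ≤ L i) ∧ Tendsto (fun i => μ {x | |w i x - t i| < S}) atTop (𝓝 0) := by
  have D0 : ∀ i, 0 < max (L i) 1 / ((⌊√(L i)⌋₊ + 1 : ℕ) : ℝ) := fun i => by positivity
  choose t t1 t2 t3 using fun i => pigeon μ (hw i) (⌊√(L i)⌋₊).succ_pos (-max (L i) 1) (D0 i)
  have s1 := Real.tendsto_sqrt_atTop.comp hL
  have s2 : Tendsto (fun i => ((⌊√(L i)⌋₊ + 1 : ℕ) : ℝ)) atTop atTop :=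
    tendsto_atTop_mono (fun i => by push_cast; exact (Nat.lt_floor_add_one _).le) s1
  refine ⟨t, fun S => ?_⟩
  have s3 : ∀ᶠ i in atTop, 1 ≤ L i ∧ S ≤ max (L i) 1 / ((⌊√(L i)⌋₊ + 1 : ℕ) : ℝ) := by
    filter_upwards [hL.eventually (eventually_ge_atTop 1), s1.eventually (eventually_ge_atTop (2 * S))]
      with i a b
    refine ⟨a, ?_⟩
    have h1 := Real.one_le_sqrt.2 a
    have h2 := Nat.floor_le (Real.sqrt_nonneg (L i))
    have h3 := Real.mul_self_sqrt (zero_le_one.trans a)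
    have b : 2 * S ≤ √(L i) := b
    rw [max_eq_left a, le_div_iff₀ (by positivity)]
    push_cast
    rcases le_total S 0 with q | q
    · nlinarith [(⌊√(L i)⌋₊).cast_nonneg (α := ℝ)]
    · nlinarith
  refine ⟨s3.mono fun i hi => ?_, (ENNReal.tendsto_toReal_zero_iff fun i => measure_ne_top _ _).1
    (squeeze_zero' (.of_forall fun _ => ENNReal.toReal_nonneg) (s3.mono fun i hi =>
      (measureReal_mono fun x hx => lt_of_lt_of_le hx hi.2).trans (t3 i)) (s2.const_div_atTop _))⟩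
  have h1 := t1 i
  have h2 := t2 i
  rw [mul_assoc, mul_div_cancel₀ _ (by positivity)] at h2
  have h3 := hi.2
  rw [max_eq_left hi.1] at h1 h2 h3
  have := abs_le.2 ⟨show -(L i - S) ≤ t i by linarith, show t i ≤ L i - S by linarith⟩
  linarith

variable {n : ℕ} {X : Type} [Mf0 n X] {g : Fld n X} {f h : X → ℝ} {O K : Set X} {Λ κ : ℝ}

/-- **a vertical family** from solutions with long windows -/
theorem exists_vf (hg : Met g) (hf : Smooth f) (hh : Smooth h) (hO : IsOpen O) (hK : IsCompact K)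
    (hKO : K ⊆ O) {w : ℕ → X → ℝ} {τ L : ℕ → ℝ} (sw : ∀ i, Smooth (w i)) (τ0 : ∀ i, 0 ≤ τ i)
    (hL : Tendsto L atTop atTop) (hκ : ∀ i, τ i * L i ≤ κ)
    (bd : ∀ i, ∀ x ∈ O, |hw g f (w i) x| ≤ Λ)
    (eq : ∀ i, ∀ x ∈ O, |w i x| < L i → hw g f (w i) x = h x + τ i * w i x)
    (cf : ∀ i x, |w i x| < L i → x ∈ K) : ∃ (t : ℕ → ℝ) (b : ℝ), |b| ≤ κ ∧
      (∀ S, ∀ᶠ i in atTop, |t i| + S ≤ L i) ∧ Vf (hyperfilter ℕ) g f (fun x => h x + b)
        (fun i x => w i x - t i) (fun i => τ i * t i - b) τ O K Λ := by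
  have := hg.locFin
  have : IsFiniteMeasure ((vol g).restrict K) := ⟨by
    rw [Measure.restrict_apply_univ]; exact hK.measure_lt_top⟩
  obtain ⟨t, ht⟩ := levels ((vol g).restrict K) (fun i => (sw i).cont.measurable) hL
  have le := Nat.hyperfilter_le_atTop
  have k1 : ∀ᶠ i in atTop, τ i * t i ∈ Icc (-κ) κ := (ht 0).1.mono fun i hi => abs_le.1 (by
    rw [abs_mul, abs_of_nonneg (τ0 i)]
    exact (mul_le_mul_of_nonneg_left (by linarith) (τ0 i)).trans (hκ i))
  obtain ⟨b, b1, b2⟩ := isCompact_Icc.ultrafilter_le_nhds'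
    ((hyperfilter ℕ).map fun i => τ i * t i) (Filter.mem_map.2 (le k1))
  have in1 : ∀ S, ∀ᶠ i in atTop, ∀ x, |w i x - t i| ≤ S → |w i x| < L i := fun S =>
    (ht (S + 1)).1.mono fun i hi x hx => by
      linarith [abs_sub_abs_le_abs_sub (w i x) (t i)]
  have e : ∀ i, hw g f (fun x => w i x - t i) = hw g f (w i) := fun i => hw_add g f (w i) (-t i)
  refine ⟨t, b, abs_le.2 b1, fun S => (ht S).1, hg, hf, CD.add hh cd_const,
    fun i => CD.sub (sw i) cd_const, hO, hK, hKO, tendsto_sub_nhds_zero_iff.2 b2,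
    (squeeze_zero' (.of_forall τ0) ((hL.eventually (eventually_gt_atTop 0)).mono fun i hi =>
      (le_div_iff₀ hi).2 (hκ i)) (hL.const_div_atTop κ)).mono_left le, τ0,
    .of_forall fun i x hx => e i ▸ bd i x hx, fun S => le ((in1 S).mono fun i hi x hx q => ?_),
    fun S => le ((in1 S).mono fun i hi x q => cf i x (hi x q)),
    fun S => ((ht S).2.congr' ((in1 S).mono fun i hi => ?_)).mono_left le⟩
  · rw [e, eq i x hx (hi x q.le)]; ring
  · rw [Measure.restrict_apply' hK.measurableSet]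
    exact congrArg _ (inter_eq_left.2 fun x hx => cf i x (hi x (le_of_lt hx)))

variable {k : ℕ} {X : Type} [Mf0 (k + 1) X] {I : Type} {𝒰 : Ultrafilter I} {g : Fld (k + 1) X}
  {f h P : X → ℝ} {u : I → X → ℝ} {c ε : I → ℝ} {O K B : Set X} {Z : Type} [Mf0 k Z] {ι : Z → X}
  {U : Set Z} {η : ℝ}

/-- the second variation along the family -/
theorem Vf.pos (F : Vf 𝒰 g f h u c ε O K Λ) (S : ℝ) (η0 : 0 < η) :
    ∀ᶠ i in (𝒰 : Filter I), ∀ x, |u i x| ≤ S → h x ^ 2 - 2 * gn g h x - η ≤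
      hw g f (u i) x ^ 2 + 2 * dn g (u i) (hw g f (u i)) x := by
  obtain ⟨C, hC⟩ := F.cpt.exists_bound_of_continuousOn F.smh.cont.continuousOn
  have t : Tendsto (fun i => 2 * |C| * (|c i| + ε i * |S|)) 𝒰 (𝓝 0) := by
    simpa using (F.c0.abs.add (F.ε0.mul_const |S|)).const_mul (2 * |C|)
  filter_upwards [F.eq (S + 1), F.cf S, t.eventually (gt_mem_nhds η0)] with i a b q x hx
  have xO := F.sub (b x hx)
  have e : hw g f (u i) =ᶠ[𝓝 x] fun y => h y + c i + ε i * u i y := by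
    filter_upwards [F.opn.mem_nhds xO, (F.smu i).cont.abs.continuousAt.eventually
      (gt_mem_nhds (hx.trans_lt (lt_add_one S)))] with y p r using a y p r
  have d := dn_cap (u := u i) (x := x) F.met (F.εp i) (h := h) (H := hw g f (u i)) fun j => by
    rw [pd_congr e, pd_add ((F.smh.diff x).add (dAt_const _)) ((dAt_const _).mul ((F.smu i).diff x)),
      pd_add_const, pd_const_mul]
  have h1 : |h x| ≤ |C| := (hC x (b x hx)).trans (le_abs_self C)
  have h2 : |c i + ε i * u i x| ≤ |c i| + ε i * |S| := (abs_add_le _ _).trans (by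
    rw [abs_mul, abs_of_nonneg (F.εp i)]
    exact add_le_add le_rfl (mul_le_mul_of_nonneg_left (hx.trans (le_abs_self S)) (F.εp i)))
  have h3 := mul_le_mul h1 h2 (abs_nonneg _) (abs_nonneg _)
  rw [← abs_mul] at h3
  rw [show hw g f (u i) x = h x + (c i + ε i * u i x) from e.self_of_nhds.trans (add_assoc _ _ _)]
  nlinarith [neg_abs_le (h x * (c i + ε i * u i x)), sq_nonneg (c i + ε i * u i x)]

/-- **the limit is stable** -/
theorem Vf.stb (F : Vf 𝒰 g f h u c ε O K Λ) (hι : Sub ι B)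
    (rg : ∀ S > (0 : ℝ), ∀ z, Rg (𝒰 : Filter I) u S ι z) (hP : Smooth P)
    (hU : ∀ z ∈ U, ∀ᶠ x in 𝓝 (ι z), P x ≤ Rf g f x + h x ^ 2 - 2 * gn g h x) (η0 : 0 < η) :
    StbP (pull ι g) (fun z => f (ι z)) U fun z => P (ι z) - η := by
  obtain ⟨C, hC⟩ := stlP
  obtain ⟨S, S0, hS⟩ : ∃ S > (0 : ℝ), C / S ^ 2 ≤ η / 2 := by
    refine ⟨2 * |C| / η + 1, by positivity, ?_⟩
    rw [div_le_iff₀ (by positivity)]
    have h1 : η * (2 * |C| / η) = 2 * |C| := mul_div_cancel₀ _ η0.ne'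
    have h2 : 0 ≤ 2 * |C| / η := by positivity
    nlinarith [le_abs_self C, mul_nonneg η0.le (mul_nonneg h2 h2), abs_nonneg C]
  have P1 := (smooth_comp hι.sm hP).cont
  refine (hC I _ k X Z g f (fun x => P x - η / 2) ι B U u S F.met F.smf (CD.sub hP cd_const) hι S0
    (.of_forall (F.slab S)) (rg S S0) fun z hz => ⟨_, hU z hz, (F.pos S (half_pos η0)).mono
      fun i hi x a b => ?_⟩).mono (hι.met F.met) (smooth_comp hι.sm F.smf)
    ((P1.sub continuous_const).sub continuous_const) (P1.sub continuous_const) subset_rfl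
    fun z _ => by linarith
  have a : P x ≤ Rf g f x + h x ^ 2 - 2 * gn g h x := a
  linarith [hi x b]

/-- **the state on the limit hypersurface** -/
theorem Vf.state (F : Vf 𝒰 g f h u c ε O K Λ) (hk : 0 < k) (hι : Sub ι B)
    (rg : ∀ S > (0 : ℝ), ∀ z, Rg (𝒰 : Filter I) u S ι z) (hP : Smooth P) (hU : IsOpen U)
    (hPU : ∀ z ∈ U, ∀ᶠ x in 𝓝 (ι z), P x ≤ Rf g f x + h x ^ 2 - 2 * gn g h x) {C : Set Z}
    (hC : IsCompact C) (hCU : C ⊆ U) (η0 : 0 < η) : ∃ l, Smooth l ∧ ∀ z ∈ C, P (ι z) - η <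
      Rf (pull ι g) (fun y => f (ι y) + l y) z - ip (pull ι g) l l z := by
  obtain ⟨l, a, b⟩ := lbarP (F.stb hι rg hP hPU (half_pos η0)) hk (hι.met F.met)
    (smooth_comp hι.sm F.smf) (CD.sub (smooth_comp hι.sm hP) cd_const) hU hC hCU (half_pos η0)
  exact ⟨l, a, fun z hz => by linarith [b z hz]⟩

end Vale.Agent.P210L
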