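import Vale.Agent.P366C.Nul0
import Vale.Agent.P366L.Null

/-!
# P210L: the set of the bad points is invariant under vertical translations
-/

open MeasureTheory Metric Filter Topology Set
open scoped ContDiff ENNReal RealInnerProductSpace
open Vale.Agent.P366.Stmt Vale.Agent.P366Z Vale.Agent.P366W
open Vale.Agent.P366D (snc ini)
open Vale.Agent.P366P (hw ini_snc snc_last snc_ini sm_ini Cy integral_Cy mp_snc emb_snc Cy_eq)
open Vale.Agent.P366L (Bad ν_sq)
open Vale.Agent.P366C (Cf coer norm_ini_le)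
open Fin (last)

noncomputable section

namespace Vale.Agent.P210L

variable {n : ℕ} {G : Field n} {φ u : E n → ℝ} {ψ : E (n + 1) → ℝ} {O : Set (E n)}
  {ρ S s Λ : ℝ}

theorem ini_shift (x : E (n + 1)) (s : ℝ) : ini (x - s • el n) = ini x := by
  ext i; simp [ini, el_cs]

theorem last_shift (x : E (n + 1)) (s : ℝ) : (x - s • el n) (last n) = x (last n) - s := by
  simp [el_last]

theorem vol_Cy {B : Set (E n)} (ρ : ℝ) : volume (Cy B ρ) = volume B * ENNReal.ofReal (2 * ρ) := by
  rw [Cy_eq, ← mp_snc.map_eq, emb_snc.map_apply, preimage_image_eq _ emb_snc.injective,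
    Measure.prod_prod, Real.volume_Icc]
  congr 2; ring

/-- the area of the graph tested with a translated function -/
theorem shift_le (hG : Met G) (hφ : Smooth φ) (hψ : ContDiff ℝ 1 ψ) (hc : HasCompactSupport ψ)
    (hO : IsOpen O) (h0 : 0 ≤ ρ) (h1 : ∀ x ∈ tsupport ψ, ini x ∈ O ∧ |x (last n)| ≤ ρ)
    (h2 : ρ + |s| < S) : ∃ C, ∀ u, Smooth u → (∀ y ∈ O, |hw G φ u y| ≤ Λ) →
      volume {y | y ∈ O ∧ |u y| < S} ≠ ⊤ →
      |∫ x, ψ (x - s • el n) ∂(cs G φ u).μ - ∫ x, ψ x ∂(cs G φ u).μ| ≤
        C * volume.real {y | y ∈ O ∧ |u y| < S} := by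
  have cQ : Continuous fun x => a1 G φ x * (‖fderiv ℝ ψ x‖ * (‖B1 G x‖ + 2) + |ψ x| * Λ) :=
    (sm_a1 hG hφ).continuous.mul (((hψ.continuous_fderiv one_ne_zero).norm.mul
      ((sm_B1 hG).continuous.norm.add continuous_const)).add (hψ.continuous.abs.mul continuous_const))
  obtain ⟨Q, hQ⟩ := hc.isCompact.exists_bound_of_continuousOn cQ.continuousOn
  refine ⟨|Q| * (2 * ρ), fun u hu hΛ hv => ?_⟩
  have ok := cs_ok hG hφ hu
  set T := cs G φ u with hT
  set F : E (n + 1) → ℝ := fun x => T.a x * (fderiv ℝ ψ x (T.ν x) + ψ x * T.H x) with hF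
  have cF : Continuous F := ok.sma.continuous.mul
    (((hψ.continuous_fderiv one_ne_zero).clm_apply ok.smν.continuous).add
      (hψ.continuous.mul ok.smH.continuous))
  have F0 : ∀ x ∉ tsupport ψ, F x = 0 := fun x hx => by
    simp [hF, image_eq_zero_of_notMem_tsupport hx, fderiv_of_notMem_tsupport ℝ hx]
  have iF : Integrable F := cF.integrable_of_hasCompactSupport (HasCompactSupport.intro hc F0)
  have bF : ∀ x ∈ tsupport ψ, |F x| ≤ |Q| := fun x hx => by
    have a1' := (a1_pos hG φ x).le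
    have n1 := ν_sq ok (x := x) (β := ‖B1 G x‖ + 1) (by positivity) (by rw [hT, cs_B]; linarith)
    have n2 : ‖T.ν x‖ ≤ ‖B1 G x‖ + 2 := by nlinarith [norm_nonneg (B1 G x), norm_nonneg (T.ν x)]
    have n3 : |T.H x| ≤ Λ := by rw [hT, cs_H hG hφ hu, abs_neg]; exact hΛ _ (h1 x hx).1
    refine le_trans ?_ ((le_abs_self _).trans ((hQ x hx).trans (le_abs_self Q)))
    rw [hF, abs_mul, hT, cs_a, abs_of_nonneg a1']
    refine mul_le_mul_of_nonneg_left ((abs_add_le _ _).trans (add_le_add ?_ ?_)) a1'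
    · exact (fderiv ℝ ψ x).le_of_opNorm_le_of_le le_rfl n2
    · rw [abs_mul]; exact mul_le_mul_of_nonneg_left n3 (abs_nonneg _)
  have d1 : ContDiff ℝ 1 fun x => ψ (x - s • el n) := hψ.comp (contDiff_id.sub contDiff_const)
  have c1 : HasCompactSupport fun x => ψ (x - s • el n) :=
    hc.comp_homeomorph (Homeomorph.subRight (s • el n))
  have eν : ∀ x, T.ν (x - s • el n) = T.ν x := fun x => by
    ext i
    refine Fin.lastCases ?_ (fun j => ?_) i
    · rw [hT, cs_ν_last hu, cs_ν_last hu, ini_shift]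
    · rw [hT, cs_ν_cs hu, cs_ν_cs hu, ini_shift]
  have e1 : ∀ x, T.a x * (fderiv ℝ (fun x => ψ (x - s • el n)) x (T.ν x) +
      ψ (x - s • el n) * T.H x) = F (x - s • el n) := fun x => by
    rw [hF, fderiv_comp_sub]
    simp only [eν]
    simp only [hT, cs_a, a1, cs_H hG hφ hu, ini_shift]
  have m0 : MeasurableSet {x | T.Φ x < 0} :=
    (isOpen_lt ok.smΦ.continuous continuous_const).measurableSet
  have m1 : MeasurableSet {x | T.Φ x + s < 0} :=
    (isOpen_lt (ok.smΦ.continuous.add continuous_const) continuous_const).measurableSet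
  have e2 : ∫ x, ψ (x - s • el n) ∂T.μ = ∫ x, {x | T.Φ x + s < 0}.indicator F x := by
    rw [ok.flux d1 c1, ← integral_indicator m0,
      ← integral_sub_right_eq_self ({x | T.Φ x + s < 0}.indicator F) (s • el n)]
    congr 1
    funext x
    have : T.Φ (x - s • el n) + s = T.Φ x := by
      rw [hT, cs_Φ, cs_Φ, ini_shift, last_shift]; ring
    simp only [indicator, mem_ofPred_eq, this, e1]
  have mB : MeasurableSet {y | y ∈ O ∧ |u y| < S} :=
    (hO.inter (isOpen_lt hu.continuous.abs continuous_const)).measurableSet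
  have mC : MeasurableSet (Cy {y | y ∈ O ∧ |u y| < S} ρ) :=
    (mB.preimage sm_ini.continuous.measurable).inter
      (isClosed_le (f := fun x : E (n + 1) => |x (last n)|) (by fun_prop)
        continuous_const).measurableSet
  have vC : volume (Cy {y | y ∈ O ∧ |u y| < S} ρ) ≠ ⊤ := by
    rw [vol_Cy]; exact ENNReal.mul_ne_top hv ENNReal.ofReal_ne_top
  rw [e2, ok.flux hψ hc, ← integral_indicator m0,
    ← integral_sub (iF.indicator m1) (iF.indicator m0)]
  refine (Real.norm_eq_abs _).symm.trans_le <| (norm_integral_le_of_norm_le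
    (g := (Cy {y | y ∈ O ∧ |u y| < S} ρ).indicator fun _ => |Q|)
    ((integrableOn_const vC).integrable_indicator mC) (.of_forall fun x => ?_)).trans_eq ?_
  · have q0 : 0 ≤ (Cy {y | y ∈ O ∧ |u y| < S} ρ).indicator (fun _ => |Q|) x :=
      indicator_nonneg (fun _ _ => abs_nonneg _) _
    by_cases hx : x ∈ tsupport ψ
    · have key : (T.Φ x + s < 0 ↔ T.Φ x < 0) ∨ x ∈ Cy {y | y ∈ O ∧ |u y| < S} ρ := by
        refine or_iff_not_imp_left.2 fun q => ⟨⟨(h1 x hx).1, ?_⟩, (h1 x hx).2⟩
        have := abs_le.1 (h1 x hx).2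
        rw [hT, cs_Φ] at q
        rw [abs_lt]
        by_cases w : x (last n) - u (ini x) < 0
        · have w' : ¬(x (last n) - u (ini x) + s < 0) := fun a => q (iff_of_true a w)
          constructor <;> linarith [le_abs_self s, abs_nonneg s]
        · have w' : x (last n) - u (ini x) + s < 0 := by_contra fun a => q (iff_of_false a w)
          constructor <;> linarith [neg_abs_le s, abs_nonneg s]
      rcases key with key | key
      · simp only [indicator, mem_ofPred_eq, key, sub_self, norm_zero] at q0 ⊢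
        exact q0
      · rw [indicator_of_mem key]
        have := bF x hx
        simp only [indicator, Real.norm_eq_abs]
        split_ifs <;> simp [this]
    · simp only [indicator, F0 x hx, ite_self, sub_self, norm_zero] at q0 ⊢
      exact q0
  · rw [integral_indicator_const _ mC, Measure.real, vol_Cy, ENNReal.toReal_mul,
      ENNReal.toReal_ofReal (by positivity), smul_eq_mul, Measure.real]
    ring

variable {I : Type} {𝒰 : Ultrafilter I} {H : E n → ℝ} {U : I → E n → ℝ} {c ε : I → ℝ}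

/-- **the bad set is vertical** -/
theorem bad_shift (h : Cf 𝒰 G φ H U c ε O S Λ) {p : E n} (hp : p ∈ O) {z e e' : ℝ}
    (hz : |z| < S) (he : e' < e) (hb : snc p z ∈ Bad 𝒰 (fun i => P366C.cs G φ (U i)) e) :
    snc p 0 ∈ Bad 𝒰 (fun i => P366C.cs G φ (U i)) e' := by
  set x : E (n + 1) := snc p 0 with hx
  have ex : snc p z - z • el n = x := by
    rw [← snc_ini (snc p z - z • el n), ini_shift, last_shift, ini_snc, snc_last, sub_self]
  obtain ⟨r, r0, hr⟩ := nhds_basis_closedBall.mem_iff.1 (h.opn.mem_nhds hp)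
  set ρ := min r ((S - |z|) / 2) with hρ
  have ρ0 : 0 < ρ := lt_min r0 (by linarith)
  have ok := cs_ok h.met h.smφ (u := fun _ => 0) contDiff_const
  obtain ⟨κ, c0, hc⟩ := coer (M := (B1 G x).inverse) fun v hv => by
    have k := ok.BA x v
    have k1 := ok.pos x (Surf.A _ x v) fun k' => hv (by rw [← k, k', map_zero])
    rwa [k] at k1
  have t2 : Tendsto (fun l : ℝ => l ^ 2) (𝓝[>] 0) (𝓝 (0 ^ 2)) :=
    ((continuous_pow 2).tendsto 0).mono_left nhdsWithin_le_nhds
  refine (Frequently.and_eventually hb ((t2.eventually (gt_mem_nhds (show (0 : ℝ) ^ 2 < κ * ρ ^ 2 by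
    rw [zero_pow two_ne_zero]; positivity))).and self_mem_nhdsWithin)).mono ?_
  rintro l ⟨h1, h2, l0⟩
  have l0 : 0 < l := l0
  set ψ : E (n + 1) → ℝ := fun y => ph (⟪(B1 G x).inverse (y - x), y - x⟫ / l ^ 2) with hψ
  have s1 : tsupport ψ ⊆ closedBall x ρ := closure_minimal (fun y hy => by_contra fun q =>
    hy (ph_zero (by
      rw [mem_closedBall_iff_norm, not_le] at q
      rw [le_div_iff₀ (by positivity), one_mul]
      exact (h2.le.trans (mul_le_mul_of_nonneg_left (pow_le_pow_left₀ ρ0.le q.le 2) c0.le)).trans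
        (hc _)))) isClosed_closedBall
  have d1 : ContDiff ℝ 1 ψ := (contDiff_ph.of_le one_le_two).comp
    (ContDiff.div_const (((B1 G x).inverse.contDiff.comp (contDiff_id.sub contDiff_const)).inner ℝ
      (contDiff_id.sub contDiff_const)) _)
  obtain ⟨C, hC⟩ := shift_le (Λ := Λ) (s := z) (S := S) h.met h.smφ d1
    ((isCompact_closedBall x ρ).of_isClosed_subset (isClosed_tsupport _) s1) h.opn ρ0.le
    (fun y hy => by
      have a := mem_closedBall_iff_norm.1 (s1 hy)
      constructor
      · have b := norm_ini_le (y - x)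
        rw [← adj_Lz, map_sub, adj_Lz, adj_Lz, hx, ini_snc] at b
        exact hr (mem_closedBall_iff_norm.2 (b.trans (a.trans (min_le_left _ _))))
      · have b := PiLp.norm_apply_le (y - x) (last n)
        rw [PiLp.sub_apply, hx, snc_last, sub_zero] at b
        exact b.trans a) (by linarith [min_le_right r ((S - |z|) / 2)])
  set D := cm n * l ^ n * (a1 G φ x * √(B1 G x).det) with hD
  have eB : B1 G (snc p z) = B1 G x := by simp only [P366W.B1, hx, ini_snc]
  have ea : a1 G φ (snc p z) = a1 G φ x := by simp only [a1, hx, ini_snc]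
  have e1 : ∀ i, (P366C.cs G φ (U i)).th x l = (∫ y, ψ y ∂(cs G φ (U i)).μ) / D := fun i => rfl
  have e2 : ∀ i, (P366C.cs G φ (U i)).th (snc p z) l =
      (∫ y, ψ (y - z • el n) ∂(cs G φ (U i)).μ) / D := fun i => by
    have : ∀ y, y - z • el n - x = y - snc p z := fun y => by rw [← ex]; abel
    rw [P366C.cs_eq, Surf.th, Surf.A, cs_B, cs_a, eB, ea]
    simp only [hψ, this, hD]
  have t1 : Tendsto (fun i => C * volume.real {y | y ∈ O ∧ |U i y| < S} / |D|) 𝒰 (𝓝 0) := by
    have := (((ENNReal.tendsto_toReal ENNReal.zero_ne_top).comp h.vol).const_mul C).div_const |D|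
    rwa [ENNReal.toReal_zero, mul_zero, zero_div] at this
  filter_upwards [h1, h.bd, h.vol.eventually (gt_mem_nhds ENNReal.zero_lt_top),
    t1.eventually (gt_mem_nhds (sub_pos.2 he))] with i k1 k2 k3 k4
  have k5 := div_le_div_of_nonneg_right (hC _ (h.smu i) k2 k3.ne) (abs_nonneg D)
  rw [← abs_div, sub_div, ← e1, ← e2] at k5
  linarith [le_abs_self ((P366C.cs G φ (U i)).th (snc p z) l - (P366C.cs G φ (U i)).th x l)]

end Vale.Agent.P210L
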